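import Vale.Agent.P217.Defs

/-!
# P217: the height ideals are primes, the last one is the maximal ideal, Galois fixes them
-/

noncomputable section

namespace Vale.Agent.P217

open MvPowerSeries

variable {p n : ℕ} [Fact p.Prime]

theorem par_zero : par p n 0 = (p : LT p n) := by simp [par]

theorem par_succ {i : ℕ} (hi : i < n - 1) : par p n (i + 1) = MvPowerSeries.X ⟨i, hi⟩ := by
  rw [par, dif_pos ⟨by omega, by omega⟩]
  exact congrArg MvPowerSeries.X (Fin.ext (by simp))

theorem galois_par (τ : Res p n ≃+* Res p n) (i : ℕ) : galois p n τ (par p n i) = par p n i := by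
  unfold par galois
  split_ifs
  · simp
  · simp
  · simp

/-- Galois fixes the height ideals. -/
theorem map_galois_le (τ : Res p n ≃+* Res p n) (h : ℕ) :
    (heightIdeal p n h).map (galois p n τ) ≤ heightIdeal p n h := by
  rw [heightIdeal, Ideal.map_span, Ideal.span_le]
  rintro _ ⟨_, ⟨i, hi, rfl⟩, rfl⟩
  rw [galois_par]
  exact Ideal.subset_span ⟨i, hi, rfl⟩

/-- The variables outside `I_h`. -/
abbrev High (n h : ℕ) : Type := {i : Fin (n - 1) // h ≤ i.val + 1}

/-- Reduction modulo `I_h`, for `h ≥ 1`. -/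
def redHeight (p n h : ℕ) [Fact p.Prime] :
    LT p n →+* MvPowerSeries (High n h) (Res p n) :=
  (MvPowerSeries.killCompl (Function.Embedding.subtype _)).toRingHom.comp
    (MvPowerSeries.map WittVector.constantCoeff)

theorem coeff_redHeight (h : ℕ) (f : LT p n) (d : High n h →₀ ℕ) :
    coeff d (redHeight p n h f) = WittVector.constantCoeff
      (coeff (Finsupp.embDomain (Function.Embedding.subtype _) d) f) := by
  simp [redHeight, coeff_killCompl, coeff_map]

/-- An exponent involving only the variables outside `I_h` comes from `High`. -/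
theorem exists_high {h : ℕ} {d : Fin (n - 1) →₀ ℕ}
    (hd : ∀ i : Fin (n - 1), i.val + 1 < h → d i = 0) :
    ∃ d' : High n h →₀ ℕ, Finsupp.embDomain (Function.Embedding.subtype _) d' = d := by
  classical
  refine ⟨d.comapDomain Subtype.val Subtype.val_injective.injOn, Finsupp.ext fun i => ?_⟩
  by_cases hi : h ≤ i.val + 1
  · exact Finsupp.embDomain_apply_self _ _ (⟨i, hi⟩ : High n h)
  · rw [Finsupp.embDomain_of_notMem_range, hd i (by omega)]
    rintro ⟨⟨j, hj⟩, rfl⟩
    exact hi hj

/-- A series without monomials avoiding the first `j` variables lies in the ideal they span. -/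
theorem mem_span_low (j : ℕ) : ∀ f : LT p n,
    (∀ d : Fin (n - 1) →₀ ℕ, (∀ i : Fin (n - 1), i.val < j → d i = 0) → coeff d f = 0) →
    f ∈ Ideal.span (MvPowerSeries.X '' {i : Fin (n - 1) | i.val < j}) := by
  classical
  induction j with
  | zero =>
    intro f hf
    rw [show f = 0 from MvPowerSeries.ext fun d =>
      (hf d fun i hi => absurd hi (Nat.not_lt_zero _)).trans (map_zero (coeff d)).symm]
    exact Ideal.zero_mem _
  | succ j ih =>
    intro f hf
    have hmono : Ideal.span (MvPowerSeries.X '' {i : Fin (n - 1) | i.val < j}) ≤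
        (Ideal.span (MvPowerSeries.X '' {i : Fin (n - 1) | i.val < j + 1}) : Ideal (LT p n)) :=
      Ideal.span_mono (Set.image_mono fun i hi => Nat.lt_succ_of_lt hi)
    by_cases hj : j < n - 1
    · let g : LT p n := fun d => if ∀ i : Fin (n - 1), i.val < j → d i = 0 then
        coeff (d + Finsupp.single ⟨j, hj⟩ 1) f else 0
      have hsplit : f = (f - MvPowerSeries.X ⟨j, hj⟩ * g) + MvPowerSeries.X ⟨j, hj⟩ * g := by ring
      rw [hsplit]
      refine Ideal.add_mem _ ?_ (Ideal.mul_mem_right _ _
        (Ideal.subset_span ⟨⟨j, hj⟩, Nat.lt_succ_self j, rfl⟩))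
      refine hmono (ih _ fun d hd => ?_)
      rw [map_sub, MvPowerSeries.X, coeff_monomial_mul]
      by_cases h0 : d ⟨j, hj⟩ = 0
      · rw [if_neg, sub_zero]
        · refine hf d fun i hi => ?_
          rcases Nat.lt_succ_iff_lt_or_eq.1 hi with h' | h'
          · exact hd i h'
          · exact (Fin.ext h' : i = ⟨j, hj⟩) ▸ h0
        · intro hle
          have := hle ⟨j, hj⟩
          rw [Finsupp.single_eq_same] at this
          omega
      · have hle : Finsupp.single (⟨j, hj⟩ : Fin (n - 1)) 1 ≤ d :=
          Finsupp.single_le_iff.2 (Nat.one_le_iff_ne_zero.2 h0)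
        rw [if_pos hle, one_mul, sub_eq_zero]
        have hg : coeff (d - Finsupp.single ⟨j, hj⟩ 1) g =
            if ∀ i : Fin (n - 1), i.val < j → (d - Finsupp.single ⟨j, hj⟩ 1 : _ →₀ ℕ) i = 0 then
              coeff (d - Finsupp.single ⟨j, hj⟩ 1 + Finsupp.single ⟨j, hj⟩ 1) f else 0 := rfl
        rw [hg, if_pos, tsub_add_cancel_of_le hle]
        intro i hi
        simp [hd i hi]
    · exact hmono (ih f fun d hd => hf d fun i _ => hd i (by have := i.isLt; omega))

/-- Witt vectors with vanishing constant coefficient are divisible by `p`. -/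
theorem exists_eq_p_mul {w : WittVector p (Res p n)} (hw : WittVector.constantCoeff w = 0) :
    ∃ v, w = (p : WittVector p (Res p n)) * v := by
  by_cases h0 : w = 0
  · exact ⟨0, by rw [h0, mul_zero]⟩
  obtain ⟨m, b, hb, rfl⟩ := WittVector.exists_eq_pow_p_mul w h0
  rcases m with _ | m
  · exact absurd hw (by simpa [WittVector.constantCoeff_apply] using hb)
  · exact ⟨(p : WittVector p (Res p n)) ^ m * b, by rw [pow_succ']; ring⟩

/-- `I_h` is the kernel of the reduction, for `1 ≤ h ≤ n`. -/
theorem heightIdeal_eq_ker {h : ℕ} (h1 : 1 ≤ h) (hn : h ≤ n) :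
    heightIdeal p n h = RingHom.ker (redHeight p n h) := by
  classical
  refine le_antisymm (Ideal.span_le.2 ?_) fun f hf => ?_
  · rintro _ ⟨i, hi, rfl⟩
    rw [SetLike.mem_coe, RingHom.mem_ker]
    ext d
    rw [coeff_redHeight, map_zero]
    rcases i with _ | i
    · rw [par_zero, ← map_natCast (MvPowerSeries.C (σ := Fin (n - 1))), coeff_C]
      split_ifs
      · rw [map_natCast]
        exact CharP.cast_eq_zero _ p
      · exact map_zero _
    · have hi' : i + 1 < h := hi
      have hin : i < n - 1 := by omega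
      rw [par_succ hin, coeff_X, if_neg, map_zero]
      intro he
      have h2 := congrArg (fun d : Fin (n - 1) →₀ ℕ => d ⟨i, hin⟩) he
      rw [Finsupp.single_eq_same, Finsupp.embDomain_of_notMem_range] at h2
      · exact absurd h2 zero_ne_one
      · rintro ⟨⟨j, hj⟩, hje⟩
        have hv : j.val = i := congrArg Fin.val hje
        omega
  · have hdiv : ∀ d : Fin (n - 1) →₀ ℕ, (∀ i : Fin (n - 1), i.val + 1 < h → d i = 0) →
        ∃ v, coeff d f = (p : WittVector p (Res p n)) * v := by
      intro d hd
      obtain ⟨d', rfl⟩ := exists_high hd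
      refine exists_eq_p_mul ?_
      rw [← coeff_redHeight, RingHom.mem_ker.1 hf, map_zero]
    choose v hv using hdiv
    let q : LT p n := fun d => if hd : ∀ i : Fin (n - 1), i.val + 1 < h → d i = 0 then v d hd else 0
    have hsplit : f = (f - (p : LT p n) * q) + (p : LT p n) * q := by ring
    rw [hsplit]
    refine Ideal.add_mem _ ?_ (Ideal.mul_mem_right _ _ (Ideal.subset_span ⟨0, h1, par_zero⟩))
    refine Ideal.span_le.2 ?_ (mem_span_low (h - 1) _ fun d hd => ?_)
    · rintro _ ⟨i, hi, rfl⟩
      exact Ideal.subset_span ⟨i.val + 1, (show i.val < h - 1 from hi) |> fun hi => by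
        show i.val + 1 < h
        omega, par_succ i.isLt⟩
    · have hd' : ∀ i : Fin (n - 1), i.val + 1 < h → d i = 0 := fun i hi => hd i (by omega)
      rw [map_sub, ← map_natCast (MvPowerSeries.C (σ := Fin (n - 1))), coeff_C_mul, sub_eq_zero]
      have hq : coeff d q = v d hd' := dif_pos hd'
      rw [hq]
      exact hv d hd'

/-- A series is in `I_h` as soon as `p` divides its coefficients avoiding the variables of
`I_h`. -/
theorem mem_heightIdeal_of_dvd {h : ℕ} (h1 : 1 ≤ h) (hn : h ≤ n) {a : LT p n}
    (ha : ∀ d : Fin (n - 1) →₀ ℕ, (∀ i : Fin (n - 1), (i : ℕ) + 1 < h → d i = 0) →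
      (p : WittVector p (Res p n)) ∣ coeff d a) :
    a ∈ heightIdeal p n h := by
  rw [heightIdeal_eq_ker h1 hn, RingHom.mem_ker]
  ext d
  obtain ⟨v, hv⟩ := ha (Finsupp.embDomain (Function.Embedding.subtype _) d) fun i hi => by
    refine Finsupp.embDomain_of_notMem_range _ _ _ ?_
    rintro ⟨⟨j, hj⟩, rfl⟩
    change j.val + 1 < h at hi
    omega
  rw [coeff_redHeight, hv, map_mul, map_natCast, CharP.cast_eq_zero _ p, zero_mul, map_zero]

/-- The height ideals are primes. -/
theorem heightIdeal_isPrime {h : ℕ} (hn : h ≤ n) : (heightIdeal p n h).IsPrime := by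
  rcases Nat.eq_zero_or_pos h with rfl | h1
  · have he : heightIdeal p n 0 = ⊥ := by simp [heightIdeal]
    rw [he]
    exact Ideal.isPrime_bot
  · rw [heightIdeal_eq_ker h1 hn]
    have : IsDomain (MvPowerSeries (High n h) (Res p n)) := NoZeroDivisors.to_isDomain _
    exact RingHom.ker_isPrime _

/-- The last height ideal is the maximal ideal. -/
theorem heightIdeal_eq_maximal (hn : 1 ≤ n) :
    heightIdeal p n n = IsLocalRing.maximalIdeal (LT p n) := by
  rw [heightIdeal_eq_ker hn le_rfl]
  refine le_antisymm (IsLocalRing.le_maximalIdeal (RingHom.ker_ne_top _)) fun f hf => ?_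
  rw [RingHom.mem_ker]
  ext d
  have : IsEmpty (High n n) := ⟨fun i => by have := i.1.isLt; have := i.2; omega⟩
  rw [coeff_redHeight, map_zero, show d = 0 from Subsingleton.elim d 0, Finsupp.embDomain_zero,
    coeff_zero_eq_constantCoeff_apply]
  by_contra hc
  refine (IsLocalRing.mem_maximalIdeal f).1 hf (isUnit_iff_constantCoeff.2 ?_)
  exact WittVector.isUnit_of_coeff_zero_ne_zero _ hc

end Vale.Agent.P217

end
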