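import Vale.Agent.P217.Easy.PSeries

/-!
Every action of the stabilizer group maps each height ideal into itself.
-/

noncomputable section

namespace Vale.Agent.P217.Easy

variable {p n : ℕ} [Fact p.Prime]

lemma heightIdeal_le_succ (h : ℕ) : heightIdeal p n h ≤ heightIdeal p n (h + 1) :=
  Ideal.span_mono (Set.image_mono fun i (hi : i < h) => Nat.lt_succ_of_lt hi)

lemma par_mem_succ (h : ℕ) : par p n h ∈ heightIdeal p n (h + 1) :=
  Ideal.subset_span ⟨h, Nat.lt_succ_self h, rfl⟩

lemma isUnit_of_isUnit_red {a : LT p n} (ha : IsUnit (red p n a)) : IsUnit a :=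
  MvPowerSeries.isUnit_iff_constantCoeff.2
    (WittVector.isUnit_of_coeff_zero_ne_zero _ ha.ne_zero)

/-- The inductive step: `φ(u_h) ∈ I_{h+1}` once `φ(I_h) ⊆ I_h`. -/
theorem action_par_mem {F : FormalGroup (LT p n)} (hF : IsUniversalLaw p n F) {h : ℕ} (h1 : 1 ≤ h)
    (h3 : h ≤ n) (hcrit : ∀ a, OffDvd p n h a → a ∈ heightIdeal p n h)
    {g : PowerSeries (Res p n)} {φ : LT p n →ₐ[WittVector p (Res p n)] LT p n}
    (hg : IsStabilizer p n F g) (hφ : IsAction p n F g φ)
    (hI : (heightIdeal p n h).map φ.toRingHom ≤ heightIdeal p n h) :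
    φ (par p n h) ∈ heightIdeal p n (h + 1) := by
  classical
  obtain ⟨f, hfg, hf0, hf⟩ := hφ
  set I := heightIdeal p n h
  set π := Ideal.Quotient.mk I
  set q := p ^ h
  have hq2 : 2 ≤ q := (Fact.out : p.Prime).two_le.trans (Nat.le_self_pow (by omega) p)
  set a := PowerSeries.coeff 1 f
  have ha : IsUnit a := by
    refine isUnit_of_isUnit_red ?_
    rw [← PowerSeries.coeff_map, hfg]
    exact hg.2
  set u := par p n h
  set P := mser F p
  obtain ⟨hlow, htop⟩ := offDvd_coeff_mser hF h1 h3
  have hP0 : PowerSeries.constantCoeff P = 0 := constantCoeff_mser F p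
  have hB0 : PowerSeries.constantCoeff (mser (F.map φ.toRingHom) p) = 0 :=
    constantCoeff_mser _ p
  have hcomm := congrArg (PowerSeries.coeff q) (subst_mser_of_hom hf0 hf p)
  rw [coeff_subst_range hP0, coeff_subst_range hf0, ← map_mser F φ.toRingHom] at hcomm
  have hcomm' := congrArg π hcomm
  simp only [map_sum, map_mul, PowerSeries.coeff_map] at hcomm'
  have hPlow : ∀ b < q, π (PowerSeries.coeff b P) = 0 := fun b hb =>
    Ideal.Quotient.eq_zero_iff_mem.2 (hcrit _ (hlow b hb))
  have hPq : π (PowerSeries.coeff q P) = π u := Ideal.Quotient.eq.2 (hcrit _ htop)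
  have hφI : ∀ x ∈ I, π (φ.toRingHom x) = 0 := fun x hx =>
    Ideal.Quotient.eq_zero_iff_mem.2 (hI (Ideal.mem_map_of_mem _ hx))
  have hPpow : ∀ d, 2 ≤ d → π (PowerSeries.coeff q (P ^ d)) = 0 := by
    intro d hd
    obtain ⟨e, rfl⟩ := Nat.exists_eq_add_of_le hd
    rw [pow_add, pow_two, mul_assoc, PowerSeries.coeff_mul, map_sum]
    refine Finset.sum_eq_zero fun x hx => ?_
    rw [map_mul]
    rcases (Finset.HasAntidiagonal.mem_antidiagonal.1 hx) with hxy
    rcases lt_or_ge x.1 q with hlt | hge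
    · rw [hPlow _ hlt, zero_mul]
    · have h2 : x.2 = 0 := by omega
      have h4 : PowerSeries.coeff x.2 (P * P ^ e) = 0 := by
        rw [h2, PowerSeries.coeff_zero_eq_constantCoeff_apply, map_mul, hP0, zero_mul]
      rw [h4, map_zero, mul_zero]
  rw [Finset.sum_eq_single 1, Finset.sum_eq_single q, pow_one, hPq, coeff_pow_self hf0,
    map_pow] at hcomm'
  · have hB : π (φ.toRingHom (PowerSeries.coeff q P)) = π (φ.toRingHom u) := by
      refine sub_eq_zero.1 ?_
      rw [← map_sub, ← map_sub]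
      exact hφI _ (hcrit _ htop)
    rw [hB, ← map_mul, ← map_pow, ← map_mul] at hcomm'
    have hmem : φ.toRingHom u * a ^ q ∈ heightIdeal p n (h + 1) := by
      have h5 : φ.toRingHom u * a ^ q - a * u ∈ heightIdeal p n (h + 1) :=
        heightIdeal_le_succ h (Ideal.Quotient.eq.1 hcomm'.symm)
      have h6 : a * u ∈ heightIdeal p n (h + 1) := Ideal.mul_mem_left _ _ (par_mem_succ h)
      simpa using add_mem h5 h6
    exact ((Ideal.mul_unit_mem_iff_mem _ (ha.pow q)).1 hmem :)
  · intro d hd hdq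
    rw [Finset.mem_range] at hd
    rw [hφI _ (hcrit _ (hlow d (by omega))), zero_mul]
  · intro hmem; exact absurd (Finset.mem_range.2 (Nat.lt_succ_self q)) hmem
  · intro d hd hd1
    rcases Nat.eq_zero_or_pos d with rfl | hd0
    · rw [PowerSeries.coeff_zero_eq_constantCoeff_apply, hf0, map_zero, zero_mul]
    · rw [hPpow d (by omega), mul_zero]
  · intro hmem; exact absurd (Finset.mem_range.2 (by omega)) hmem

/-- All height ideals are stable under every action. -/
theorem action_heightIdeal_le {F : FormalGroup (LT p n)} (hF : IsUniversalLaw p n F)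
    (hcrit : ∀ h, 1 ≤ h → h ≤ n → ∀ a, OffDvd p n h a → a ∈ heightIdeal p n h)
    {g : PowerSeries (Res p n)} {φ : LT p n →ₐ[WittVector p (Res p n)] LT p n}
    (hg : IsStabilizer p n F g) (hφ : IsAction p n F g φ) :
    ∀ h ≤ n, (heightIdeal p n h).map φ.toRingHom ≤ heightIdeal p n h := by
  intro h
  induction h with
  | zero => intro _; simp [heightIdeal, Ideal.map_bot]
  | succ h ih =>
    intro hh
    rw [heightIdeal, Ideal.map_span, Ideal.span_le]
    rintro _ ⟨_, ⟨i, hi, rfl⟩, rfl⟩
    rcases (Nat.lt_succ_iff.1 hi).lt_or_eq with hlt | heq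
    · exact heightIdeal_le_succ h
        (ih (by omega) (Ideal.mem_map_of_mem _ (Ideal.subset_span ⟨i, hlt, rfl⟩)))
    · subst heq
      rcases Nat.eq_zero_or_pos i with rfl | hpos
      · have e : φ.toRingHom (par p n 0) = par p n 0 := by simp [par]
        rw [e]
        exact par_mem_succ 0
      · exact action_par_mem hF hpos (by omega) (hcrit i hpos (by omega)) hg hφ (ih (by omega))

end Vale.Agent.P217.Easy
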