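import Vale.Agent.P217.Spec
import Vale.Agent.P217.Easy.Invariant
import Vale.Agent.P217.Easy.Ideals

/-!
Block D: the height ideals are invariant primes and `I_n` is the maximal ideal.
-/

namespace Vale.Agent.P217

/-- The easy block, with no hypothesis beyond `1 ≤ n`. -/
theorem easyStatement (p n : ℕ) [Fact p.Prime] (hn : 1 ≤ n) : EasyStatement p n := fun _ hF =>
  ⟨fun h hh => ⟨heightIdeal_isPrime hh,
      ⟨fun _ _ hg hφ => Easy.action_heightIdeal_le hF
        (fun _ h1 h3 _ ha => mem_heightIdeal_of_dvd h1 h3 ha) hg hφ h hh,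
       fun τ => map_galois_le τ h⟩⟩,
    heightIdeal_eq_maximal hn⟩

end Vale.Agent.P217
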