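import Vale.Agent.P217.Easy.Series

/-!
The multiplication by `p` of Hazewinkel's law modulo `I_h`: it is `u_h x^{p^h}` up to degree `p^h`.
-/

noncomputable section

namespace Vale.Agent.P217.Easy

open MvPowerSeries

variable (p n : ℕ) [Fact p.Prime]

/-- The monomials free of `u_1, …, u_{h-1}` have coefficients divisible by `p`. -/
def OffDvd (h : ℕ) (a : LT p n) : Prop :=
  ∀ d : Fin (n - 1) →₀ ℕ, (∀ i : Fin (n - 1), (i : ℕ) + 1 < h → d i = 0) →
    (p : WittVector p (Res p n)) ∣ MvPowerSeries.coeff d a

/-- Specialisation `u_1 = … = u_{h-1} = 0` after passing to rational coefficients. -/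
def spec (h : ℕ) : RatLT p n →+* RatLT p n :=
  MvPowerSeries.rescale fun i : Fin (n - 1) => if (i : ℕ) + 1 < h then 0 else 1

/-- The specialisation of an element of the Lubin-Tate ring. -/
def specLT (h : ℕ) : LT p n →+* RatLT p n := (spec p n h).comp (toRat p n)

variable {p n}

lemma coeff_spec_of_off {h : ℕ} {d : Fin (n - 1) →₀ ℕ}
    (hd : ∀ i : Fin (n - 1), (i : ℕ) + 1 < h → d i = 0) (a : RatLT p n) :
    MvPowerSeries.coeff d (spec p n h a) = MvPowerSeries.coeff d a := by
  rw [spec, MvPowerSeries.coeff_rescale, Finsupp.prod, Finset.prod_eq_one, one_mul]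
  intro i hi
  rw [if_neg fun hlt => Finsupp.mem_support_iff.1 hi (hd i hlt), one_pow]

lemma offDvd_of_specLT {h : ℕ} {a b : LT p n} (hab : specLT p n h a = specLT p n h b) :
    OffDvd p n h (a - b) := by
  intro d hd
  have h1 := congrArg (MvPowerSeries.coeff d) hab
  simp only [specLT, RingHom.comp_apply, coeff_spec_of_off hd, toRat, MvPowerSeries.coeff_map] at h1
  have h2 := IsFractionRing.injective (WittVector p (Res p n))
    (FractionRing (WittVector p (Res p n))) h1
  simp [h2]

lemma offDvd_p (h : ℕ) (a : LT p n) : OffDvd p n h ((p : LT p n) * a) := by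
  intro d _
  rw [show ((p : LT p n)) = MvPowerSeries.C (p : WittVector p (Res p n)) from (map_natCast _ p).symm,
    MvPowerSeries.coeff_C_mul]
  exact dvd_mul_right _ _

lemma OffDvd.add {h : ℕ} {a b : LT p n} (ha : OffDvd p n h a) (hb : OffDvd p n h b) :
    OffDvd p n h (a + b) := fun d hd => by
  rw [map_add]; exact dvd_add (ha d hd) (hb d hd)

lemma pK_ne_zero : (p : FractionRing (WittVector p (Res p n))) ≠ 0 := by
  rw [← map_natCast (algebraMap (WittVector p (Res p n)) (FractionRing (WittVector p (Res p n))))]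
  exact fun h0 => WittVector.p_nonzero p (Res p n)
    (IsFractionRing.injective _ (FractionRing (WittVector p (Res p n)))
      (h0.trans (map_zero _).symm))

lemma p_mul_invP : (p : RatLT p n) * invP p n = 1 := by
  rw [invP, show ((p : RatLT p n)) = MvPowerSeries.C (p : FractionRing (WittVector p (Res p n)))
    from (map_natCast _ p).symm, ← map_mul, mul_inv_cancel₀ pK_ne_zero, map_one]

lemma specLT_par_of_lt {h i : ℕ} (h1 : 1 ≤ i) (h2 : i < h) (h3 : h ≤ n) :
    specLT p n h (par p n i) = 0 := by
  have hi : 1 ≤ i ∧ i < n := ⟨h1, by omega⟩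
  classical
  ext d
  simp only [specLT, RingHom.comp_apply, spec, par, dif_pos hi, toRat, MvPowerSeries.map_X,
    MvPowerSeries.coeff_rescale, MvPowerSeries.coeff_X, map_zero]
  split_ifs with hd
  · subst hd
    rw [Finsupp.prod_single_index (by simp), if_pos (show i - 1 + 1 < h by omega)]
    simp
  · simp

lemma spec_logCoeff {h : ℕ} (h3 : h ≤ n) :
    ∀ N, 0 < N → N < h → spec p n h (logCoeff p n N) = 0 := by
  intro N hN hNh
  obtain ⟨N, rfl⟩ := Nat.exists_eq_succ_of_ne_zero hN.ne'
  rw [logCoeff, map_mul, map_sum]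
  refine mul_eq_zero_of_right _ (Finset.sum_eq_zero fun i _ => ?_)
  rw [if_pos (by have := i.isLt; omega), map_mul, map_pow]
  refine mul_eq_zero_of_right _ ?_
  rw [show spec p n h (toRat p n (par p n (i.val + 1))) = 0 from
    specLT_par_of_lt (by omega) (by have := i.isLt; omega) h3,
    zero_pow (pow_ne_zero _ (Fact.out : p.Prime).ne_zero)]

lemma spec_logCoeff_self {h : ℕ} (h1 : 1 ≤ h) (h3 : h ≤ n) :
    spec p n h (logCoeff p n h) = spec p n h (invP p n) * specLT p n h (par p n h) := by
  obtain ⟨N, rfl⟩ := Nat.exists_eq_succ_of_ne_zero (by omega : h ≠ 0)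
  rw [logCoeff, map_mul, map_sum, Finset.sum_eq_single ⟨N, by omega⟩]
  · simp [show N < n by omega, specLT, logCoeff]
  · intro i _ hi
    have hiN : i.val < N := by
      have := i.isLt
      have : i.val ≠ N := fun hh => hi (Fin.ext hh)
      omega
    rw [if_pos (by omega), map_mul, map_pow]
    refine mul_eq_zero_of_right _ ?_
    rw [show spec p n (N + 1) (toRat p n (par p n (i.val + 1))) = 0 from
      specLT_par_of_lt (by omega) (by omega) h3,
      zero_pow (pow_ne_zero _ (Fact.out : p.Prime).ne_zero)]
  · simp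

lemma coeff_logSeries_one : PowerSeries.coeff 1 (logSeries p n) = 1 := by
  simp [logSeries, logCoeff]

lemma constantCoeff_logSeries : PowerSeries.constantCoeff (logSeries p n) = 0 := by
  simp [logSeries, ← PowerSeries.coeff_zero_eq_constantCoeff_apply]

lemma coeff_logSeries_pow (N : ℕ) :
    PowerSeries.coeff (p ^ N) (logSeries p n) = logCoeff p n N := by
  simp [logSeries, Nat.log_pow (Fact.out : p.Prime).one_lt]

/-- The specialised logarithm is `x + (u_h / p) x^{p^h}` up to degree `p^h`. -/
lemma coeff_spec_logSeries {h b : ℕ} (h3 : h ≤ n) (hb : b ≤ p ^ h) (hb1 : b ≠ 1)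
    (hbq : b ≠ p ^ h) : spec p n h (PowerSeries.coeff b (logSeries p n)) = 0 := by
  rw [logSeries, PowerSeries.coeff_mk]
  split_ifs with hpow
  · have hlt : Nat.log p b < h := by
      rw [← Nat.pow_lt_pow_iff_right (Fact.out : p.Prime).one_lt, hpow]
      omega
    refine spec_logCoeff h3 _ (Nat.pos_of_ne_zero fun h0 => hb1 ?_) hlt
    rw [← hpow, h0, pow_zero]
  · exact map_zero _

/-- The coefficients of `[p](x)` below `p^h` lie in `I_h` and that at `p^h` is `u_h` modulo `I_h`. -/
theorem offDvd_coeff_mser {F : FormalGroup (LT p n)} (hF : IsUniversalLaw p n F) {h : ℕ}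
    (h1 : 1 ≤ h) (h3 : h ≤ n) :
    (∀ b < p ^ h, OffDvd p n h (PowerSeries.coeff b (mser F p))) ∧
      OffDvd p n h (PowerSeries.coeff (p ^ h) (mser F p) - par p n h) := by
  classical
  set q := p ^ h with hq
  have hpr : p.Prime := Fact.out
  have hq2 : 2 ≤ q := hpr.two_le.trans (Nat.le_self_pow (by omega) p)
  set L := PowerSeries.map (spec p n h) (logSeries p n) with hLdef
  set Y := PowerSeries.map (specLT p n h) (mser F p) with hYdef
  have hY0 : PowerSeries.constantCoeff Y = 0 := by
    rw [hYdef, ← PowerSeries.coeff_zero_eq_constantCoeff_apply, PowerSeries.coeff_map,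
      PowerSeries.coeff_zero_eq_constantCoeff_apply]
    exact (congrArg _ (constantCoeff_mser F p)).trans (map_zero _)
  have hlog := subst_mser_log (F := F.map (toRat p n)) constantCoeff_logSeries hF p
  rw [← map_mser F (toRat p n)] at hlog
  have hsub : PowerSeries.HasSubst (PowerSeries.map (toRat p n) (mser F p)) := by
    refine PowerSeries.HasSubst.of_constantCoeff_zero' ?_
    rw [← PowerSeries.coeff_zero_eq_constantCoeff_apply, PowerSeries.coeff_map,
      PowerSeries.coeff_zero_eq_constantCoeff_apply]
    exact (congrArg _ (constantCoeff_mser F p)).trans (map_zero _)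
  have hmain : PowerSeries.subst Y L = p • L := by
    have h1 := congrArg (PowerSeries.map (spec p n h)) hlog
    rw [map_nsmul] at h1
    rw [← h1, hLdef, hYdef]
    exact (PowerSeries.map_subst hsub (h := spec p n h) _).symm
  set u := specLT p n h (par p n h) with hu
  set w := spec p n h (invP p n) with hw
  have hpw : (p : RatLT p n) * w = 1 := by
    rw [hw, ← map_natCast (spec p n h), ← map_mul, p_mul_invP, map_one]
  have hLone : PowerSeries.coeff 1 L = 1 := by
    rw [hLdef, PowerSeries.coeff_map, coeff_logSeries_one, map_one]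
  have hLq : PowerSeries.coeff q L = w * u := by
    rw [hLdef, PowerSeries.coeff_map, hq, coeff_logSeries_pow, spec_logCoeff_self h1 h3]
  have hL0 : ∀ b ≤ q, b ≠ 1 → b ≠ q → PowerSeries.coeff b L = 0 := fun b hb hb1 hbq => by
    rw [hLdef, PowerSeries.coeff_map, coeff_spec_logSeries h3 hb hb1 hbq]
  have hlow : ∀ b < q, PowerSeries.coeff b Y = if b = 1 then (p : RatLT p n) else 0 := by
    intro b hb
    have h := congrArg (PowerSeries.coeff b) hmain
    rw [map_nsmul, coeff_subst_range hY0, Finset.sum_eq_single 1, hLone, one_mul, pow_one] at h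
    · rcases eq_or_ne b 1 with rfl | hb1
      · rw [h, hLone, if_pos rfl, nsmul_eq_mul, mul_one]
      · rw [h, hL0 b hb.le hb1 hb.ne, smul_zero, if_neg hb1]
    · intro d hd hd1
      rw [Finset.mem_range] at hd
      rw [hL0 d (by omega) hd1 (by omega), zero_mul]
    · intro hmem
      rw [Finset.mem_range, not_lt] at hmem
      rw [coeff_pow_eq_zero hY0 (by omega), mul_zero]
  have hY1 : PowerSeries.coeff 1 Y = (p : RatLT p n) := by simpa using hlow 1 hq2
  have hYq : PowerSeries.coeff q Y = u - w * u * (p : RatLT p n) ^ q := by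
    have h := congrArg (PowerSeries.coeff q) hmain
    rw [map_nsmul, coeff_subst_range hY0, Finset.sum_eq_add (a := 1) (b := q) (by omega),
      hLone, one_mul, pow_one, hLq, coeff_pow_self hY0, hY1, nsmul_eq_mul, ← mul_assoc, hpw,
      one_mul] at h
    · exact eq_sub_of_add_eq h
    · intro d hd hd1
      rw [Finset.mem_range] at hd
      rw [hL0 d (by omega) hd1.1 hd1.2, zero_mul]
    · intro hmem; exact absurd (Finset.mem_range.2 (by omega)) hmem
    · intro hmem; exact absurd (Finset.mem_range.2 (by omega)) hmem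
  refine ⟨fun b hb => ?_, ?_⟩
  · have e : specLT p n h (PowerSeries.coeff b (mser F p)) =
        specLT p n h (if b = 1 then (p : LT p n) else 0) := by
      rw [← PowerSeries.coeff_map, ← hYdef, hlow b hb]
      split_ifs <;> simp
    have h2 := (offDvd_of_specLT e).add (offDvd_p h (if b = 1 then 1 else 0))
    convert h2 using 1
    split_ifs <;> simp
  · obtain ⟨q', hq'⟩ : ∃ q', q = q' + 2 := ⟨q - 2, by omega⟩
    have e : specLT p n h (PowerSeries.coeff q (mser F p)) =
        specLT p n h (par p n h - (p : LT p n) * ((p : LT p n) ^ q' * par p n h)) := by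
      rw [← PowerSeries.coeff_map, ← hYdef, hYq, map_sub, map_mul, map_mul, map_pow, map_natCast,
        ← hu, hq']
      calc u - w * u * (p : RatLT p n) ^ (q' + 2)
          = u - (p : RatLT p n) * w * ((p : RatLT p n) * ((p : RatLT p n) ^ q' * u)) := by ring
        _ = _ := by rw [hpw, one_mul]
    have h2 := (offDvd_of_specLT e).add (offDvd_p h (-((p : LT p n) ^ q' * par p n h)))
    convert h2 using 1
    ring

end Vale.Agent.P217.Easy
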