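import Vale.Agent.P217.Defs

/-!
The multiplication series `[m](x)` of a formal group law, its naturality, and the low coefficients
of substitutions.
-/

noncomputable section

namespace Vale.Agent.P217.Easy

variable {R : Type} [CommRing R] {S : Type} [CommRing S]

/-- The series `[m](x)`. -/
def mser (F : FormalGroup R) : ℕ → PowerSeries R
  | 0 => 0
  | m + 1 => MvPowerSeries.subst ![mser F m, PowerSeries.X] F.toPowerSeries

lemma hasSubst_pair {σ : Type} {a b : MvPowerSeries σ R} (ha : a.constantCoeff = 0)
    (hb : b.constantCoeff = 0) : MvPowerSeries.HasSubst ![a, b] :=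
  MvPowerSeries.hasSubst_of_constantCoeff_zero fun i => by fin_cases i <;> simp [ha, hb]

lemma constantCoeff_mser (F : FormalGroup R) :
    ∀ m, MvPowerSeries.constantCoeff (mser F m : MvPowerSeries Unit R) = 0
  | 0 => map_zero _
  | m + 1 => by
    have hX : MvPowerSeries.constantCoeff (PowerSeries.X : MvPowerSeries Unit R) = 0 :=
      PowerSeries.constantCoeff_X
    exact MvPowerSeries.constantCoeff_subst_eq_zero (hasSubst_pair (constantCoeff_mser F m) hX)
      (fun i => by fin_cases i <;> simp [constantCoeff_mser F m, hX]) F.zero_constantCoeff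

lemma map_mser (F : FormalGroup R) (h : R →+* S) :
    ∀ m, PowerSeries.map h (mser F m) = mser (F.map h) m
  | 0 => map_zero _
  | m + 1 => by
    have hX : MvPowerSeries.constantCoeff (PowerSeries.X : MvPowerSeries Unit R) = 0 :=
      PowerSeries.constantCoeff_X
    change MvPowerSeries.map h (MvPowerSeries.subst _ _) = MvPowerSeries.subst _ _
    rw [MvPowerSeries.map_subst (hasSubst_pair (constantCoeff_mser F m) hX)]
    congr 1
    funext i
    fin_cases i
    · exact map_mser F h m
    · exact PowerSeries.map_X h

/-- A homomorphism commutes with multiplication by `m`. -/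
theorem subst_mser_of_hom {A B : FormalGroup R} {f : PowerSeries R}
    (hf0 : PowerSeries.constantCoeff f = 0)
    (hf : PowerSeries.subst A.toPowerSeries f =
      MvPowerSeries.subst ![PowerSeries.subst (MvPowerSeries.X (0 : Fin 2)) f,
        PowerSeries.subst (MvPowerSeries.X (1 : Fin 2)) f] B.toPowerSeries) :
    ∀ m, PowerSeries.subst (mser A m) f = PowerSeries.subst f (mser B m)
  | 0 => by
    have hsf : PowerSeries.HasSubst f := PowerSeries.HasSubst.of_constantCoeff_zero' hf0
    rw [mser, mser, ← PowerSeries.coe_substAlgHom hsf, map_zero]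
    exact PowerSeries.subst_zero_of_constantCoeff_zero hf0
  | m + 1 => by
    have ih := subst_mser_of_hom hf0 hf m
    have hX : MvPowerSeries.constantCoeff (PowerSeries.X : MvPowerSeries Unit R) = 0 :=
      PowerSeries.constantCoeff_X
    have hsA := hasSubst_pair (constantCoeff_mser A m) hX
    have hsB := hasSubst_pair (constantCoeff_mser B m) hX
    have hsf : PowerSeries.HasSubst f := PowerSeries.HasSubst.of_constantCoeff_zero' hf0
    have hA : PowerSeries.HasSubst A.toPowerSeries :=
      PowerSeries.HasSubst.of_constantCoeff_zero A.zero_constantCoeff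
    have hc : ∀ i : Fin 2, (PowerSeries.subst (MvPowerSeries.X i) f :
        MvPowerSeries (Fin 2) R).constantCoeff = 0 := fun i =>
      PowerSeries.constantCoeff_subst_eq_zero (MvPowerSeries.constantCoeff_X i) f hf0
    calc PowerSeries.subst (mser A (m + 1)) f
        = MvPowerSeries.subst ![mser A m, PowerSeries.X] (PowerSeries.subst A.toPowerSeries f) := by
          rw [mser, PowerSeries.subst_def, PowerSeries.subst_def,
            MvPowerSeries.subst_comp_subst_apply hA.const hsA]
      _ = MvPowerSeries.subst ![PowerSeries.subst (mser A m) f, f] B.toPowerSeries := by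
          rw [hf, MvPowerSeries.subst_comp_subst_apply (hasSubst_pair (hc 0) (hc 1)) hsA]
          congr 1
          funext i
          fin_cases i
          · simp only [Fin.zero_eta, Matrix.cons_val_zero, PowerSeries.subst_def]
            rw [MvPowerSeries.subst_comp_subst_apply (PowerSeries.HasSubst.X 0).const hsA]
            simp [MvPowerSeries.subst_X hsA]
          · simp only [Fin.mk_one, Matrix.cons_val_one, Matrix.cons_val_fin_one,
              PowerSeries.subst_def]
            rw [MvPowerSeries.subst_comp_subst_apply (PowerSeries.HasSubst.X 1).const hsA]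
            simp only [MvPowerSeries.subst_X hsA, Matrix.cons_val_one, Matrix.cons_val_fin_one,
              ← PowerSeries.subst_def]
            exact PowerSeries.X_subst f
      _ = PowerSeries.subst f (mser B (m + 1)) := by
          rw [mser, PowerSeries.subst_def f, MvPowerSeries.subst_comp_subst_apply hsB hsf.const, ih]
          congr 1
          funext i
          fin_cases i
          · rfl
          · exact (PowerSeries.subst_X hsf).symm

lemma mser_Ga : ∀ m : ℕ, mser (FormalGroup.𝔾ₐ (R := R)) m = m • PowerSeries.X
  | 0 => by simp [mser]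
  | m + 1 => by
    have hX : MvPowerSeries.constantCoeff (PowerSeries.X : MvPowerSeries Unit R) = 0 :=
      PowerSeries.constantCoeff_X
    have hs := hasSubst_pair (constantCoeff_mser (FormalGroup.𝔾ₐ (R := R)) m) hX
    rw [mser, FormalGroup.𝔾ₐ_toPowerSeries, MvPowerSeries.subst_add hs, MvPowerSeries.subst_X hs,
      MvPowerSeries.subst_X hs]
    simp [mser_Ga m]
    ring

/-- Multiplication by `m` multiplies a logarithm by `m`. -/
theorem subst_mser_log {F : FormalGroup R} {L : PowerSeries R}
    (hL0 : PowerSeries.constantCoeff L = 0)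
    (hL : PowerSeries.subst F.toPowerSeries L =
      PowerSeries.subst (MvPowerSeries.X (0 : Fin 2)) L +
        PowerSeries.subst (MvPowerSeries.X (1 : Fin 2)) L) (m : ℕ) :
    PowerSeries.subst (mser F m) L = m • L := by
  have hc : ∀ i : Fin 2, (PowerSeries.subst (MvPowerSeries.X i) L :
      MvPowerSeries (Fin 2) R).constantCoeff = 0 := fun i =>
    PowerSeries.constantCoeff_subst_eq_zero (MvPowerSeries.constantCoeff_X i) L hL0
  have hs := hasSubst_pair (hc 0) (hc 1)
  have hsL : PowerSeries.HasSubst L := PowerSeries.HasSubst.of_constantCoeff_zero' hL0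
  rw [subst_mser_of_hom (B := FormalGroup.𝔾ₐ) hL0 ?_ m, mser_Ga,
    ← PowerSeries.coe_substAlgHom hsL, map_nsmul, PowerSeries.coe_substAlgHom,
    PowerSeries.subst_X hsL]
  rw [hL, FormalGroup.𝔾ₐ_toPowerSeries, MvPowerSeries.subst_add hs, MvPowerSeries.subst_X hs,
    MvPowerSeries.subst_X hs]
  simp

lemma coeff_pow_eq_zero {Y : PowerSeries R} (hY : PowerSeries.constantCoeff Y = 0) {b d : ℕ}
    (h : b < d) : PowerSeries.coeff b (Y ^ d) = 0 :=
  PowerSeries.X_pow_dvd_iff.1 (pow_dvd_pow_of_dvd (PowerSeries.X_dvd_iff.2 hY) d) b h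

lemma coeff_pow_self {Y : PowerSeries R} (hY : PowerSeries.constantCoeff Y = 0) (d : ℕ) :
    PowerSeries.coeff d (Y ^ d) = PowerSeries.coeff 1 Y ^ d := by
  obtain ⟨Z, rfl⟩ := PowerSeries.X_dvd_iff.2 hY
  rw [mul_pow, PowerSeries.coeff_succ_X_mul, PowerSeries.coeff_zero_eq_constantCoeff]
  have := PowerSeries.coeff_X_pow_mul (Z ^ d) d 0
  simpa using this

/-- A coefficient of a substitution is a finite sum. -/
lemma coeff_subst_range {Y : PowerSeries R} (hY : PowerSeries.constantCoeff Y = 0)
    (L : PowerSeries R) (b : ℕ) :
    PowerSeries.coeff b (PowerSeries.subst Y L) =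
      ∑ d ∈ Finset.range (b + 1), PowerSeries.coeff d L * PowerSeries.coeff b (Y ^ d) := by
  rw [PowerSeries.coeff_subst' (PowerSeries.HasSubst.of_constantCoeff_zero' hY),
    finsum_eq_sum_of_support_subset (s := Finset.range (b + 1))]
  · simp
  · intro d hd
    by_contra hdb
    refine hd ?_
    simp only [Finset.coe_range, Set.mem_Iio, not_lt] at hdb
    simp [coeff_pow_eq_zero hY (show b < d by omega)]

end Vale.Agent.P217.Easy
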